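import Vale.Agent.P305.Bridge
import Vale.Agent.P315.Rec

/-! Semantics of the algorithm and memory layout. FROZEN. -/

namespace Vale.Agent.P305

open Vale.Agent.P315 Finset

section Alg

variable {K : Type} [Field K]

/-- The alternating matrix with upper part `u`. -/
def alt (u : ℕ → ℕ → K) (i j : ℕ) : K := if i < j then u i j else if j < i then -u j i else 0

/-- The matrix of size `N`. -/
def mat (N : ℕ) (u : ℕ → ℕ → K) : Matrix (Fin N) (Fin N) K := Matrix.of fun i j => alt u i j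

/-- Nonsingular. -/
def Ns (N : ℕ) (u : ℕ → ℕ → K) : Prop := (mat N u).det ≠ 0

open Classical in
/-- The inverse. -/
noncomputable def iv (N : ℕ) (u : ℕ → ℕ → K) (i j : ℕ) : K :=
  if h : i < N ∧ j < N then (mat N u)⁻¹ ⟨i, h.1⟩ ⟨j, h.2⟩ else 0

/-- Change one entry. -/
def up2 (u : ℕ → ℕ → K) (i j : ℕ) (x : K) : ℕ → ℕ → K :=
  fun a b => if a = i ∧ b = j then x else u a b

open Classical in
/-- One step towards the target `tg`. -/
noncomputable def step (N : ℕ) (tg u : ℕ → ℕ → K) (e : ℕ × ℕ) : ℕ → ℕ → K :=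
  if e.1 < e.2 ∧ Ns N (up2 u e.1 e.2 (tg e.1 e.2)) then up2 u e.1 e.2 (tg e.1 e.2) else u

/-- Product of matrices of size `s`. -/
def mm (s : ℕ) (A B : ℕ → ℕ → K) (i j : ℕ) : K := ∑ t ∈ range s, A i t * B t j

/-- Identity minus a matrix. -/
def oms (A : ℕ → ℕ → K) (i j : ℕ) : K := (if i = j then 1 else 0) - A i j

end Alg

/-- The order of the pairs. -/
def ord (k : ℕ) : ℕ → ℕ → ℕ → List (ℕ × ℕ)
  | 0, a, b => [(a, b)]
  | l + 1, a, b => (List.range (k * k)).flatMap fun c => ord k l (a * k + c / k) (b * k + c % k)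

/-- Local index to global index. -/
def gi (k l a b x : ℕ) : ℕ := (if x < k ^ l then a else b) * k ^ l + x % k ^ l

/-- An integer scheme for the product of matrices of size `2 ^ kap`. -/
structure Sch where
  kap : ℕ
  ρ : ℕ
  D : ℕ
  A : ℕ → ℤ
  B : ℕ → ℤ
  C : ℕ → ℤ

namespace Sch

variable (S : Sch)

def k : ℕ := 2 ^ S.kap

structure Ok : Prop where
  hk : 1 ≤ S.kap
  hρ : S.k * S.k ≤ S.ρ
  hD : 0 < S.D
  id : ∀ a < S.k, ∀ b < S.k, ∀ c < S.k, ∀ d < S.k, ∀ e < S.k, ∀ f < S.k,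
    ∑ r ∈ range S.ρ, S.A (r * (S.k * S.k) + (a * S.k + b)) * S.B (r * (S.k * S.k) + (c * S.k + d)) *
      S.C (r * (S.k * S.k) + (e * S.k + f)) = if b = c ∧ a = e ∧ d = f then (S.D : ℤ) else 0

variable (n : ℕ)

def L : ℕ := Nat.clog S.k (2 * n + 2)
def N : ℕ := S.k ^ S.L n
def h : ℕ := S.N n / 2
def W : ℕ := S.k ^ (2 * (S.L n + 1))
def w : ℕ := 2 * S.kap * S.L n + (S.D + 4)
def p : ℕ := Nat.find (Nat.exists_infinite_primes (2 ^ S.w n + 1))
def R : ℕ := S.w n + S.ρ + 1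
/-- Bound of all addresses and stored numbers. -/
def big : ℕ := (S.w n + S.L n + 4) * (S.ρ ^ (S.L n + 2) + 8 * 2 ^ S.w n)
/-- Cost unit: one product at level `l`. -/
def cu (l : ℕ) : ℕ := (S.L n + 3) * S.ρ ^ (l + 1)

instance : Fact (S.p n).Prime := ⟨(Nat.find_spec (Nat.exists_infinite_primes _)).2⟩

/-- The random value of a pair. -/
def val (ρ : ℕ → Bool) (e : ℕ) : ℕ :=
  1 + ∑ t ∈ range (S.w n), if ρ (e * S.w n + t) = true then 2 ^ t else 0

variable {n} (G : SimpleGraph (Fin n)) (ρ : ℕ → Bool)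

/-- The edges of the extended graph. -/
def HE (i j : ℕ) : Prop := i < j ∧ j < S.N n ∧
  ((∃ (hi : i < n) (hj : j < n), G.Adj ⟨i, hi⟩ ⟨j, hj⟩) ∨ S.h n ≤ i ∨ j = i + S.h n)

open Classical in
/-- The targets of the three sweeps. -/
noncomputable def tg (φ : ℕ) (i j : ℕ) : ZMod (S.p n) :=
  if S.HE G i j ∧ (φ = 0 ∨ (φ = 1 ∧ j ≠ i + S.h n)) then (S.val n ρ (i * S.N n + j) : ℕ) else 0

variable (n) in
/-- The first state. -/
def u0 (i j : ℕ) : ZMod (S.p n) := if j = i + S.h n then 1 else 0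

variable (n) in
/-- A sweep. -/
noncomputable def sw (t u : ℕ → ℕ → ZMod (S.p n)) : ℕ → ℕ → ZMod (S.p n) :=
  (ord S.k (S.L n) 0 0).foldl (step (S.N n) t) u

/-- The final state. -/
noncomputable def fin : ℕ → ℕ → ZMod (S.p n) :=
  S.sw n (S.tg G ρ 2) (S.sw n (S.tg G ρ 1) (S.sw n (S.tg G ρ 0) (S.u0 n)))

/-- The support inside the graph is a maximum matching. -/
def Good (u : ℕ → ℕ → ZMod (S.p n)) : Prop :=
  ∃ μ : Fin n → Fin n, (∀ v, μ (μ v) = v) ∧ (∀ v, μ v ≠ v → G.Adj v (μ v)) ∧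
    (∀ σ : Fin n → Fin n, (∀ v, σ (σ v) = v) → (∀ v, σ v ≠ v → G.Adj v (σ v)) →
      (univ.filter fun v => σ v ≠ v).card ≤ (univ.filter fun v => μ v ≠ v).card) ∧
    ∀ a b : Fin n, alt u a b ≠ 0 ↔ (μ a = b ∧ μ a ≠ a)

variable (n)

/-- The inverse on the local indices. -/
noncomputable def loc (u : ℕ → ℕ → ZMod (S.p n)) (l a b x y : ℕ) : ZMod (S.p n) :=
  iv (S.N n) u (gi S.k l a b x) (gi S.k l a b y)

/-- The change made by the child `c` of the node `(l + 1, a, b)`, on the local indices. -/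
def dl (u u' : ℕ → ℕ → ZMod (S.p n)) (l a b c x y : ℕ) : ZMod (S.p n) :=
  if x / S.k ^ l = c / S.k ∧ y / S.k ^ l = S.k + c % S.k ∧
      gi S.k (l + 1) a b x < gi S.k (l + 1) a b y then
    u' (gi S.k (l + 1) a b x) (gi S.k (l + 1) a b y) - u (gi S.k (l + 1) a b x) (gi S.k (l + 1) a b y)
  else if y / S.k ^ l = c / S.k ∧ x / S.k ^ l = S.k + c % S.k ∧
      gi S.k (l + 1) a b y < gi S.k (l + 1) a b x then
    u (gi S.k (l + 1) a b y) (gi S.k (l + 1) a b x) - u' (gi S.k (l + 1) a b y) (gi S.k (l + 1) a b x)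
  else 0

/-- Local index of the parent to local index of a child at level `l`. -/
def bk (l x : ℕ) : ℕ := (if x < S.k ^ (l + 1) then 0 else S.k ^ l) + x % S.k ^ l

/-- Local index of the child `c` at level `l` to local index of the parent. -/
def fw (l c y : ℕ) : ℕ :=
  if y < S.k ^ l then c / S.k * S.k ^ l + y else S.k ^ (l + 1) + c % S.k * S.k ^ l + y % S.k ^ l

/-- The read-only tables. -/
structure RO (m : Mem) : Prop where
  sm : ∀ i, m 7 i = [S.k * S.k, S.w n, S.ρ].getD i 0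
  par : ∀ i < 8, m 17 i = [S.p n, S.N n, S.L n, S.W n, S.h n, n, S.w n, 2 ^ S.w n].getD i 0
  pk : ∀ i ≤ 2 * S.L n + 2, m 18 i = S.k ^ i
  pρ : ∀ i ≤ S.L n + 1, m 19 i = S.ρ ^ i
  inv : ∀ i < S.p n, m 20 i = ((i : ZMod (S.p n))⁻¹).val
  cA : ∀ q < S.ρ * (S.k * S.k), m 21 q = (S.A q : ZMod (S.p n)).val
  cB : ∀ q < S.ρ * (S.k * S.k), m 22 q = (S.B q : ZMod (S.p n)).val
  cC : ∀ q < S.ρ * (S.k * S.k), m 23 q = (S.C q * (S.D : ZMod (S.p n))⁻¹ : ZMod (S.p n)).val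

end Sch

/-- The matrix `A` of size `s` is stored in `arr` from `off` on. -/
def Rp {p : ℕ} (m : Mem) (arr off s : ℕ) (A : ℕ → ℕ → ZMod p) : Prop :=
  ∀ i < s, ∀ j < s, m arr (off + (i * s + j)) = (A i j).val

/-- Only the listed arrays change. -/
def Kp (l : List ℕ) (m m' : Mem) : Prop := ∀ a, a ∉ l → m' a = m a

/-- The standing assumptions. -/
structure Cx (S : Sch) (n B V κ : ℕ) : Prop where
  ok : S.Ok
  env : Env B V (S.R n) κ
  big : S.big n ≤ V

/-- The cost of a compiled expression. -/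
def kc (S : Sch) (n κ : ℕ) : ℕ := κ * S.R n ^ κ

/-- The state at a node of the recursion. -/
structure Nd (S : Sch) (n V : ℕ) (tg u : ℕ → ℕ → ZMod (S.p n)) (l a b : ℕ) (m : Mem) : Prop where
  ro : S.RO n m
  bd : Bd V m
  lv : m 8 0 = l
  fa : m 9 (3 * l) = a
  fb : m 9 (3 * l + 1) = b
  ns : Ns (S.N n) u
  ru : Rp m 10 0 (S.N n) u
  rt : Rp m 12 0 (S.N n) tg
  rm : Rp m 11 (l * S.W n) (S.k ^ (l + 1)) (S.loc n u l a b)

/-- The frames above level `l` are unchanged. -/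
structure Fm (S : Sch) (n l : ℕ) (m m' : Mem) : Prop where
  kp : Kp [8, 9, 10, 11, 13, 14, 15, 30] m m'
  f9 : ∀ i, 3 * l + 2 < i → m' 9 i = m 9 i
  f11 : ∀ i, (l + 1) * S.W n ≤ i → m' 11 i = m 11 i

/-- The copy of the state in array 16 is right on the block `(l, a, b)`. -/
def Cp16 (S : Sch) (n : ℕ) (u : ℕ → ℕ → ZMod (S.p n)) (l a b : ℕ) (m : Mem) : Prop :=
  ∀ i < S.N n, ∀ j < S.N n, i / S.k ^ l = a → j / S.k ^ l = b → m 16 (i * S.N n + j) = (u i j).val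

/-- The specification of `c` at level `l`. -/
def Sp (S : Sch) (n : ℕ) (P : List Cmd) (B V : ℕ) (c : Cmd) (l T : ℕ) : Prop :=
  ∀ (tg u : ℕ → ℕ → ZMod (S.p n)) (a b : ℕ) (m : Mem), a < S.k ^ (S.L n - l) →
    b < S.k ^ (S.L n - l) → Nd S n V tg u l a b m → Cp16 S n u l a b m →
    ∃ m', Does P B c m m' T ∧ Fm S n l m m' ∧
      Nd S n V tg ((ord S.k l a b).foldl (step (S.N n) tg) u) l a b m'

end Vale.Agent.P305
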